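import Vale.Agent.P281.H64.Z10.FinP
import Vale.Agent.P281.H152.RC.HktFin

/-!
# P281, Towers v3 (helper64): the input HTLe (class C)
-/

noncomputable section

namespace Vale.Agent.P281.H64.Z10

theorem htLe : HTLe := htLe_of H152.RC.thktC

end Vale.Agent.P281.H64.Z10
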